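import Vale.Agent.N315.Main

/-! P315 on the standard word RAM: an explicit rate for the time complexity of
`(1 + ε)`-approximating the edit distance, and one approximation scheme that reads the accuracy
from its input. -/

set_option autoImplicit false

namespace Vale.Agent.Results.P315.A0Scheme

open Vale.Agent.P315 Vale.Agent.P315R45 Vale.Agent.N315 Real

/-- (1) For fixed `ε > 0` the time `n ^ (1 + O(log log log n / log log n))` is achievable.
(2) One program reads `x, y` and `r ≥ 1` and outputs a `(1 + 1 / r)`-approximation in time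
`n ^ (1 + O((log r + log log log n) / log log n))`; for every `δ > 0` there is `c > 0` such that
its time is `O(n ^ (1 + δ))` for all `r ≤ (log n) ^ c`. -/
theorem result :
    (∀ ε : ℝ, 0 < ε → ∃ (k : ℕ) (P : List Instr) (C : ℝ),
      ∀ (n σ w T : ℕ) (x y : List ℕ), x.length ≤ n → y.length ≤ n → 0 < σ →
        (∀ a ∈ x ++ y, a < σ) → σ * (n + 2) ^ k ≤ 2 ^ w →
        C * ((n : ℝ) + 16) ^
          (1 + C * (log (log (log ((n : ℝ) + 16))) / log (log ((n : ℝ) + 16)))) ≤ T →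
        Approx (1 + ε) P w T x y) ∧
    (∃ (k : ℕ) (P : List Instr) (C : ℝ),
      (∀ (n σ w T r : ℕ) (x y : List ℕ), x.length ≤ n → y.length ≤ n → 1 ≤ r → 0 < σ →
        (∀ a ∈ x ++ y, a < σ) → σ * (n + r + 2) ^ k ≤ 2 ^ w →
        C * ((n : ℝ) + 16) ^
          (1 + C * (log (r * log (log ((n : ℝ) + 16))) / log (log ((n : ℝ) + 16)))) ≤ T →
        Scheme P w T x y r) ∧
      ∀ δ : ℝ, 0 < δ → ∃ c C' : ℝ, 0 < c ∧
        ∀ (n σ w T r : ℕ) (x y : List ℕ), x.length ≤ n → y.length ≤ n → 1 ≤ r → 0 < σ →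
          (∀ a ∈ x ++ y, a < σ) → σ * (n + r + 2) ^ k ≤ 2 ^ w →
          (r : ℝ) ≤ log ((n : ℝ) + 16) ^ c → C' * ((n : ℝ) + 1) ^ (1 + δ) ≤ T →
          Scheme P w T x y r) := by
  refine ⟨fun ε hε => ?_, ?_⟩
  · obtain ⟨k, P, C, -, h⟩ := upper_rate hε
    refine ⟨k, P, C, fun n σ w T x y hx hy hσ hs hw hT => h n σ w T x y hx hy hσ hs hw ?_⟩
    rwa [bd, rho, one_mul]
  · obtain ⟨k, P, C, hC, h⟩ := upper_scheme
    refine ⟨k, P, C, h, fun δ hδ => ?_⟩
    obtain ⟨c, C', hc, h'⟩ := bd_small hC hδ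
    exact ⟨c, C', hc, fun n σ w T r x y hx hy hr hσ hs hw hl hT =>
      h n σ w T r x y hx hy hr hσ hs hw ((h' n r (Nat.one_le_cast.2 hr) hl).trans hT)⟩

end Vale.Agent.Results.P315.A0Scheme
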